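import Vale.Agent.P042.H92.PLocal
import Vale.Agent.P042.H284.Oo
import Vale.Agent.P042.H727.PStar
import Vale.Agent.P042.H742.PSome

/-!
# P042: the local lower bound, final glue (helper85, row 29, level 2)

`pfin`: the typed bounds of the marginal laws (`BTSof`), the block with one super-modulus (`BOof`),
the absolute bounds (F1*) and (A*) give the lower bound of the local sum.
-/

set_option autoImplicit false
set_option linter.unusedSectionVars false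

namespace Vale.Agent.P042.H85

open Finset
open Vale.Agent.P042.H284 (co tyi BTS FK zF wF rs)
open Vale.Agent.P042.H384 (lf)
open Vale.Agent.P042.H461 (push)
open Vale.Agent.P042.H92 (Prm PLaw PPair Scl BTSof BOof)

/-- **Data of one super-modulus**, of logarithm `lm`: the system with the extra site `none`.
`FB` = the family of the main system, `FMm` = the family with the modulus. -/
def SupD (Q : Prm) (K0 k : ℕ) (lm : ℝ) {J ι : Type} [Fintype J] [DecidableEq J] [Fintype ι]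
    [DecidableEq ι] (sc : ι → J) (sn : J → ℕ) (ell : J → ℝ) (FB FMm : Finset ι → ℝ) : Prop :=
  ∃ (V : Option ι → Type) (_ : ∀ i, Fintype (V i)) (_ : ∀ i, DecidableEq (V i))
    (ℓ es : Option ι → ℝ) (lo : Option ι → Prop) (lam lam2 u : ∀ i, V i → ℝ)
    (K : ∀ i, V i → V i → ℝ) (c : Option ι → ℝ) (v v' : ∀ i, V i → ℝ)
    (s : ∀ i, V i → V i → ℝ) (rho e : Option ι → ℝ) (mu mu' : (∀ i, V i) → ℝ) (M0 : ℝ),
    Scl Q K0 univ (fun i => ℓ (some i)) (fun i => es (some i)) sc sn ell ∧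
    PPair Q (univ.erase none) ℓ es lo lam lam2 u K c v v' s rho e mu mu' ∧
    Q.p ≤ lm ∧ ℓ none = lm ∧ rho none ≤ Real.exp (k * lm) ∧ e none ≤ Real.exp (k * lm) ∧
    |M0| ≤ Real.exp (k * lm) ∧
    (∀ B : Finset ι, FMm B = M0 * FK K mu mu' (Finset.insertNone B)) ∧
    (∀ B : Finset ι, FB B = FK (fun i => K (some i)) (push rs mu) (push rs mu') B)

/-- the frame of the scales, smaller threshold -/
theorem Scl_mono {J ι : Type} [Fintype ι] [DecidableEq ι] {Q : Prm} {K0 K0' : ℕ} {S : Finset ι}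
    {ℓ es : ι → ℝ} {sc : ι → J} {sn : J → ℕ} {ell : J → ℝ} (h : K0' ≤ K0)
    (H : Scl Q K0 S ℓ es sc sn ell) : Scl Q K0' S ℓ es sc sn ell :=
  ⟨H.inj, H.ell1, fun j => h.trans (H.K0 j), H.top, H.es1, H.lo, H.up, H.card⟩

/-- a law is at most its marginals -/
theorem le_m1 {ι : Type} [Fintype ι] [DecidableEq ι] {V : ι → Type}
    [∀ i, Fintype (V i)] [∀ i, DecidableEq (V i)] {mu : (∀ i, V i) → ℝ} (h0 : ∀ x, 0 ≤ mu x)
    (x : ∀ i, V i) (i : ι) : mu x ≤ H779.m1 mu i (x i) := by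
  unfold H779.m1
  rw [← Finset.sum_filter]
  exact Finset.single_le_sum (f := mu) (fun y _ => h0 y)
    (Finset.mem_filter.2 ⟨Finset.mem_univ x, rfl⟩)

/-- absolute continuity -/
theorem ac_of_pair {Q : Prm} {ι : Type} [Fintype ι] [DecidableEq ι] {V : ι → Type}
    [∀ i, Fintype (V i)] [∀ i, DecidableEq (V i)] {ℓ es : ι → ℝ} {lo : ι → Prop}
    {lam lam2 u : ∀ i, V i → ℝ} {mu : (∀ i, V i) → ℝ} (hlaw : PLaw Q univ ℓ es lam u mu)
    (low : ∀ i, lo i → lam2 i = lam i) (high : ∀ i, ¬ lo i → lam2 i = u i)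
    (x : ∀ i, V i) (hx : mu x ≠ 0) (i : ι) : lam2 i (x i) ≠ 0 := by
  by_cases h : lo i
  · rw [low i h]
    intro h0
    have h1 := hlaw.ref.ac i (x i) h0
    exact hx (le_antisymm (h1 ▸ le_m1 hlaw.ref.prob.1 x i) (hlaw.ref.prob.1 x))
  · rw [high i h, hlaw.u1]
    exact (Real.exp_pos _).ne'

/-- product of the bounds -/
theorem mul_bound {M0 w k A l d x c y : ℝ} (hM : |M0| ≤ Real.exp (k * l))
    (hw : |w| ≤ Real.exp (A * l + A * d * x - c * y)) (hk : 0 ≤ k) (hx : 0 ≤ d * x) :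
    |M0 * w| ≤ Real.exp ((A + k) * l + (A + k) * d * x - c * y) := by
  rw [abs_mul]
  refine (mul_le_mul hM hw (abs_nonneg _) (Real.exp_pos _).le).trans ?_
  rw [← Real.exp_add]
  refine Real.exp_le_exp.2 ?_
  have h4 := mul_nonneg hk hx
  nlinarith

/-- growth -/
theorem exp_lin {C1 d1 : ℝ} (hC1 : 0 ≤ C1) (hd1 : 0 < d1) :
    ∃ p0 : ℝ, 0 ≤ p0 ∧ ∀ p : ℝ, p0 ≤ p →
      Real.exp (d1 * p) * (C1 * p + 1) ≤ Real.exp (2 * d1 * p) := by
  refine ⟨2 * C1 / d1 ^ 2, by positivity, fun p hp => ?_⟩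
  have hp0 : 0 ≤ p := le_trans (by positivity) hp
  have h1 : C1 * p + 1 ≤ Real.exp (d1 * p) := by
    have h2 := Real.quadratic_le_exp_of_nonneg (mul_nonneg hd1.le hp0)
    have h3 : C1 * p ≤ (d1 * p) ^ 2 / 2 := by
      rw [div_le_iff₀ (by positivity)] at hp
      nlinarith
    have h4 : 0 ≤ d1 * p := mul_nonneg hd1.le hp0
    linarith
  calc Real.exp (d1 * p) * (C1 * p + 1) ≤ Real.exp (d1 * p) * Real.exp (d1 * p) :=
        mul_le_mul_of_nonneg_left h1 (Real.exp_pos _).le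
    _ = Real.exp (2 * d1 * p) := by rw [← Real.exp_add]; congr 1; ring

/-- **The local lower bound of the power version.** -/
theorem pfin (hB : BTSof) (hO : BOof) {C1 : ℝ} (hC1 : 4 ≤ C1) (k : ℕ) {cr C2 c4 : ℝ}
    (hcr0 : 0 < cr) (hcr : cr ≤ 1 / 2) (hC2 : 0 ≤ C2) (hc4 : 0 < c4) :
    ∃ CK0 : ℕ, ∀ CK : ℕ, CK0 ≤ CK → ∃ G0 : ℝ, 0 < G0 ∧ ∀ G : ℝ, 0 < G → G ≤ G0 →
    ∃ gs δ0 : ℝ, 0 < gs ∧ 0 < δ0 ∧
    ∃ g0 : ℝ, 0 < g0 ∧ 8 * g0 ≤ gs ∧ ∃ k0 : ℝ, 0 < k0 ∧ ∀ g kap γ d1 : ℝ, 0 < g → g ≤ g0 →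
      0 < kap → 32 * kap ≤ g → 0 < γ → γ ≤ k0 * kap → 0 < d1 → d1 ≤ k0 →
    ∀ a0 : ℝ, 0 ≤ a0 → ∃ K0 : ℕ, ∀ θ c0 cD : ℝ, 0 < θ → 0 < c0 → 0 < cD → cD ≤ k0 * (γ * θ) →
    ∃ p0 : ℝ, ∀ p : ℝ, p0 ≤ p → ∀ Q : Prm, Q = ⟨p, C1, γ, a0, θ, c0, cD, kap, d1, G, CK⟩ →
    ∀ (J : Type) [Fintype J] [DecidableEq J] (ι : Type) [Fintype ι] [DecidableEq ι]
      (V : ι → Type) [∀ i, Fintype (V i)] [∀ i, DecidableEq (V i)] (ℓ es : ι → ℝ) (sc : ι → J)
      (sn : J → ℕ) (ell : J → ℝ) (lo : ι → Prop) (lam lam2 u : ∀ i, V i → ℝ)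
      (K : ∀ i, V i → V i → ℝ) (c : ι → ℝ) (v v' : ∀ i, V i → ℝ) (s : ∀ i, V i → V i → ℝ) (rho e : ι → ℝ)
      (mu mu' : (∀ i, V i) → ℝ) (b0 : ℕ) (Bd rr : J → ℝ) (DD : Finset (Finset ι))
      (FB : Finset ι → ℝ) (M : Finset ℕ) (FM : ℕ → Finset ι → ℝ)
      (DDm : ℕ → Finset (Finset ι)),
      Scl Q K0 univ ℓ es sc sn ell →
      PPair Q univ ℓ es lo lam lam2 u K c v v' s rho e mu mu' →
      (b0 : ℝ) + 1 ≤ Real.exp (d1 * p) →
      (∀ j, Real.exp (8 * g * ell j) ≤ Bd j) → (∀ j, Bd j ≤ Real.exp (gs * ell j)) →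
      C2 + 900 * ∑ j, Bd j + Fintype.card J + 3 ≤ b0 →
      (∀ j, Real.exp 3 ≤ rr j) →
      (∀ (j : J) (n : ℕ), n ≠ 0 → n ≤ b0 → (n : ℝ) ≤ Real.exp (ell j) →
        cr * Real.log n ≤ Real.log (rr j)) →
      (∀ B, FB B = FK K mu mu' B) →
      (∀ B : Finset ι, B.card ≤ b0 → B ∈ DD) →
      (∀ r : J → ℝ, (∀ j, 0 ≤ r j) → (∀ j, r j ≤ rr j) →
        ∑ B ∈ DD, |FB B| * ∏ i ∈ B, r (sc i)
          ≤ Real.exp (C2 + ∑ j, Bd j * (r j + r j ^ 2))) →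
      (∀ m ∈ M, 2 ≤ m) →
      (∀ m ∈ M, Real.log m ≤ Real.exp (2 * d1 * p) → ∀ B : Finset ι, B.card ≤ b0 → B ∈ DDm m) →
      (∀ Z : ℝ, 1 ≤ Z → ∀ r : J → ℝ, (∀ j, 0 ≤ r j) → (∀ j, r j ≤ rr j) →
        ∑ m ∈ M.filter (fun m : ℕ => Z < (m : ℝ)), ∑ B ∈ DDm m, |FM m B| * ∏ i ∈ B, r (sc i)
          ≤ δ0 * Real.exp (-(c4 * Real.log Z)) *
            Real.exp (C2 + ∑ j, Bd j * (r j + r j ^ 2))) →
      (∀ m ∈ M, Real.log m ≤ Real.exp (2 * d1 * p) →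
        SupD Q K0 k (Real.log m) sc sn ell FB (FM m)) →
      1 / 2 * Real.exp (-(2 * ∑ j, Bd j)) ≤ ∑ B ∈ DD, FB B + ∑ m ∈ M, ∑ B ∈ DDm m, FM m B := by
  obtain ⟨CKa, hBa⟩ := hB C1 hC1
  obtain ⟨CKb, hOb⟩ := hO C1 hC1 k
  refine ⟨max CKa CKb, fun CK hCK => ?_⟩
  obtain ⟨Ga, hGa, hBa⟩ := hBa CK ((le_max_left _ _).trans hCK)
  obtain ⟨Gb, hGb, hOb⟩ := hOb CK ((le_max_right _ _).trans hCK)
  refine ⟨min Ga Gb, lt_min hGa hGb, fun G hG hGG => ?_⟩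
  obtain ⟨c1, c2, A, hc1, hc12, ga, hga, ka, hka, hBa⟩ := hBa G hG (hGG.trans (min_le_left _ _))
  obtain ⟨c3, c3', A', hc3, _, gb, hgb, kb, hkb, hOb⟩ := hOb G hG (hGG.trans (min_le_right _ _))
  obtain ⟨gs, hgs, hgsc, δ0, hδ0, HS⟩ := H727.pmainS (c1 := c1) (c3 := c3) (cr := cr) (C1 := C2)
    (A2 := (A' : ℝ) + k) (c4 := c4) A hc1 hc3 hcr0 hcr hC2 (by positivity) hc4
  refine ⟨gs, δ0, hgs, hδ0, min (min ga gb) (min (gs / 8) (c2 - c1)),
    lt_min (lt_min hga hgb) (lt_min (by positivity) (by linarith)), ?_, min ka kb,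
    lt_min hka hkb, ?_⟩
  · have : min (min ga gb) (min (gs / 8) (c2 - c1)) ≤ gs / 8 :=
      (min_le_right _ _).trans (min_le_left _ _)
    linarith
  intro g kap γ d1 hg hgg hkap hk32 hγ hγk hd1 hd1k a0 ha0
  have hgga : g ≤ ga := hgg.trans ((min_le_left _ _).trans (min_le_left _ _))
  have hggb : g ≤ gb := hgg.trans ((min_le_left _ _).trans (min_le_right _ _))
  have hgs8 : g ≤ gs / 8 := hgg.trans ((min_le_right _ _).trans (min_le_left _ _))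
  have hgc : g ≤ c2 - c1 := hgg.trans ((min_le_right _ _).trans (min_le_right _ _))
  obtain ⟨l0, HS⟩ := HS (8 * g) (by positivity) (by linarith)
  obtain ⟨Ka, hBa⟩ := hBa g kap γ d1 hg hgga hkap hk32 hγ
    (hγk.trans (mul_le_mul_of_nonneg_right (min_le_left _ _) hkap.le)) hd1
    (hd1k.trans (min_le_left _ _)) a0 ha0
  obtain ⟨Kb, hOb⟩ := hOb g kap γ d1 hg hggb hkap hk32 hγ
    (hγk.trans (mul_le_mul_of_nonneg_right (min_le_right _ _) hkap.le)) hd1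
    (hd1k.trans (min_le_right _ _)) a0 ha0
  refine ⟨max (max l0 2) (max Ka Kb), fun θ c0 cD hθ hc0 hcD hcDk => ?_⟩
  have hγθ : 0 ≤ γ * θ := by positivity
  obtain ⟨pa, hBa⟩ := hBa θ c0 cD hθ hc0 hcD
    (hcDk.trans (mul_le_mul_of_nonneg_right (min_le_left _ _) hγθ))
  obtain ⟨pb, hOb⟩ := hOb θ c0 cD hθ hc0 hcD
    (hcDk.trans (mul_le_mul_of_nonneg_right (min_le_right _ _) hγθ))
  obtain ⟨pc, hpc0, hpc⟩ := exp_lin (C1 := C1) (d1 := d1) (by linarith) hd1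
  refine ⟨max (max pa pb) pc, fun p hp Q hQ => ?_⟩
  have hpa : pa ≤ p := ((le_max_left _ _).trans (le_max_left _ _)).trans hp
  have hpb : pb ≤ p := ((le_max_right _ _).trans (le_max_left _ _)).trans hp
  have hpcp : pc ≤ p := (le_max_right _ _).trans hp
  have hp0 : 0 ≤ p := hpc0.trans hpcp
  replace hBa := hBa p hpa
  replace hOb := hOb p hpb
  rw [← hQ] at hBa hOb
  intro J _ _ ι _ _ V _ _ ℓ es sc sn ell lo lam lam2 u K c v v' s rho e mu mu' b0 Bd rr DD FB M FM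
    DDm hScl hPP hb0 hB1 hB2 hb3 hrr hrrk hFB hDD hF1 hM2 hDDm hA hSup
  have hQp : Q.p = p := by rw [hQ]
  have hQd : Q.d1 = d1 := by rw [hQ]
  have hQC : Q.C1 = C1 := by rw [hQ]
  have hFBf : FB = FK K mu mu' := funext hFB
  subst hFBf
  have hell0 : ∀ j, 0 ≤ ell j := fun j => by
    rw [hScl.ell1 j]
    exact mul_nonneg (Nat.cast_nonneg _) (Real.log_nonneg (by norm_num))
  have hell1 : ∀ j, 1 ≤ ell j := fun j => by
    rw [hScl.ell1 j]
    have h1 : (2 : ℝ) ≤ sn j := by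
      exact_mod_cast ((le_max_right _ _).trans (le_max_left _ _)).trans (hScl.K0 j)
    have h2 : (1 : ℝ) / 2 ≤ Real.log 2 := by
      have := Real.log_two_gt_d9
      linarith
    nlinarith
  have hBd0 : 0 ≤ ∑ j, Bd j := Finset.sum_nonneg fun j _ => (Real.exp_pos _).le.trans (hB1 j)
  have hb02 : 2 ≤ b0 := by
    have h1 : (0 : ℝ) ≤ Fintype.card J := Nat.cast_nonneg _
    have h2 : (2 : ℝ) ≤ b0 := by linarith
    exact_mod_cast h2
  have hScla : Scl Q Ka univ ℓ es sc sn ell :=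
    Scl_mono ((le_max_left _ _).trans (le_max_right _ _)) hScl
  refine HS J sn ell b0 g c2 Bd rr hScl.inj
    (fun j => ((le_max_left _ _).trans (le_max_left _ _)).trans (hScl.K0 j)) hScl.ell1 hg.le le_rfl (by linarith) hb02
    hB1 hB2 hb3 hrr hrrk ι V lam2 K c v v' s rho e mu mu' sc DD hPP.nn hPP.ob
    hPP.law.ref.prob.2 hPP.law'.ref.prob.2
    (fun x hx i => ac_of_pair hPP.law hPP.low hPP.high x hx i)
    (fun x hx i => ac_of_pair hPP.law' hPP.low hPP.high x hx i) ?_ ?_ hDD hF1 M FM DDm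
    (Real.exp (2 * d1 * p)) hM2 (Real.exp_pos _).le ?_ hDDm hA ?_
  · intro j
    refine le_trans ?_ (hScl.card (ell j))
    norm_cast
    refine Finset.card_le_card fun i hi => ?_
    rw [Finset.mem_filter] at hi ⊢
    exact ⟨hi.1, by rw [hScl.es1 i hi.1, hi.2]⟩
  · intro b hb1 hbb j
    refine hBa J ι V ℓ es sc sn ell lo lam lam2 u K c v v' s rho e mu mu' hScla hPP b hb1 ?_ j
    rw [hQp, hQd]
    have h1 : (b : ℝ) ≤ b0 := by exact_mod_cast hbb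
    linarith
  · intro j
    have h1 := hScl.top j
    rw [hQC, hQp] at h1
    refine le_trans ?_ (hpc p hpcp)
    exact mul_le_mul (by linarith) h1 (hell0 j) (Real.exp_pos _).le
  · intro m hm hml
    obtain ⟨V', i1, i2, ℓ', es', lo', lam', lam2', u', K', c', w, w', s', rho', e', N, N', M0,
      hScl', hPP', hplm, hlm, hrho, he, hM0, hFM, hFB'⟩ := hSup m hm hml
    obtain ⟨W, hW1, hW2⟩ := hOb J ι V' ℓ' es' sc sn ell lo' lam' lam2' u' K' c' w w' s'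
      rho' e' N N' (Scl_mono ((le_max_right _ _).trans (le_max_right _ _)) hScl') hPP'
      (H742.ppair_some hPP')
      (by rw [hlm]; exact hplm)
      (by rw [hlm, hQd, hQp]; exact hml) (by rw [hlm]; exact hrho) (by rw [hlm]; exact he)
    rw [hQd, hQp] at hW1 hW2
    have hdeg : ∀ a : J →₀ ℕ, a.degree ≤ b0 → (a.degree : ℝ) + 1 ≤ Real.exp (d1 * p) := by
      intro a ha
      have h1 : (a.degree : ℝ) ≤ b0 := by exact_mod_cast ha
      linarith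
    refine ⟨fun a => M0 * W a, fun a ha => ?_, fun a ha => ?_⟩
    · have h1 := hW1 a (hdeg a ha)
      rw [Finset.sum_congr rfl fun B _ => hFM B, ← Finset.mul_sum, h1, Finset.mul_sum]
      refine Finset.sum_congr rfl fun x _ => ?_
      rw [Finset.sum_congr rfl fun B _ => hFB' B]
      ring
    · have h1 := hW2 a (hdeg a ha)
      rw [hlm] at h1
      have h2 : 0 ≤ (a.degree : ℝ) * Real.log (lf ell a) := by
        by_cases ha0 : a = 0
        · simp [ha0]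
        · exact mul_nonneg (Nat.cast_nonneg _)
            (Real.log_nonneg (H384.lf_pos hell1 ha0))
      exact mul_bound hM0 h1 (Nat.cast_nonneg _) h2

end Vale.Agent.P042.H85
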