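import Vale.Agent.P042.H85.PFin
import Vale.Agent.P042.H85.Dict

/-!
# P042: the families of `pfin` from the pair sums of the seam (helper85)

`FBa .. 1 B` and `FBa .. m B` are the families `FK` of the main system and of the system with the
super-modulus `m`.
-/

set_option autoImplicit false
set_option linter.unusedSectionVars false

namespace Vale.Agent.P042.H85

open Finset Polynomial
open Vale.Agent.P042.H284 (FK rs)
open Vale.Agent.P042.H461 (push)
open Vale.Agent.P042.H74 (Ram NS kN)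
open Vale.Agent.P042.H92 (Prm PPair Scl)

section
variable {a : Type} [Fintype a] [DecidableEq a]

/-- restriction of a push-forward to the ordinary sites -/
theorem push_rs_pw {V : Option a → Type} [∀ i, Fintype (V i)] [∀ i, DecidableEq (V i)]
    (red : ℤ → ∀ i, V i) (S : Finset ℤ) (f : ℤ → ℝ) :
    push rs (pw red S f) = pw (fun n (i : a) => red n (some i)) S f := by
  classical
  funext y
  unfold push pw
  rw [Finset.sum_comm]
  refine Finset.sum_congr rfl fun n _ => ?_
  rw [Finset.sum_ite_eq]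
  by_cases h : rs (red n) = y
  · have h2 : (fun i : a => red n (some i)) = y := h
    have h3 : red n ∈ Finset.univ.filter (fun x : ∀ i, V i => rs x = y) :=
      Finset.mem_filter.2 ⟨Finset.mem_univ _, h⟩
    rw [if_pos h2, if_pos h3]
  · have h2 : ¬ (fun i : a => red n (some i)) = y := h
    have h3 : red n ∉ Finset.univ.filter (fun x : ∀ i, V i => rs x = y) :=
      fun h1 => h (Finset.mem_filter.1 h1).2
    rw [if_neg h2, if_neg h3]

/-- **Data of the super-modulus `m`** in the letters of the integer side: the system with the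
residues modulo `m` at the site `none`; the two laws are the images of the two weights. -/
def SupI (Q : Prm) (K0 k : ℕ) {J : Type} [Fintype J] [DecidableEq J] (sc : a → J)
    (sn : J → ℕ) (ell : J → ℝ) (g : ℤ[X]) (PP : Finset ℕ) (S1 S2 : Finset ℤ) (f f' : ℤ → ℝ)
    (prm : a → ℕ) (lo : a → Prop) [DecidablePred lo] (Kl : {i // lo i} → ℤ → ℤ → ℝ)
    (m : ℕ) : Prop :=
  ∃ (V : Option a → Type) (_ : ∀ i, Fintype (V i)) (_ : ∀ i, DecidableEq (V i))
    (red : ℤ → ∀ i, V i) (ℓ es : Option a → ℝ) (lo' : Option a → Prop)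
    (lam lam2 u : ∀ i, V i → ℝ)
    (K : ∀ i, V i → V i → ℝ) (c : Option a → ℝ) (v v' : ∀ i, V i → ℝ)
    (s : ∀ i, V i → V i → ℝ) (rho e : Option a → ℝ),
    Scl Q K0 univ (fun i => ℓ (some i)) (fun i => es (some i)) sc sn ell ∧
    PPair Q (univ.erase none) ℓ es lo' lam lam2 u K c v v' s rho e (pw red S1 f) (pw red S2 f') ∧
    Q.p ≤ Real.log m ∧ ℓ none = Real.log m ∧
    rho none ≤ Real.exp (k * Real.log m) ∧ e none ≤ Real.exp (k * Real.log m) ∧
    (∀ (i : {i // lo i}), ∀ n ∈ S1, ∀ n' ∈ S2,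
      Kl i n n' = K (some i) (red n (some i)) (red n' (some i))) ∧
    (∀ i, ¬ lo i → ∀ n ∈ S1, ∀ n' ∈ S2,
      kN g (prm i) (n - n') = K (some i) (red n (some i)) (red n' (some i))) ∧
    (∀ n ∈ S1, ∀ n' ∈ S2, Ram g PP m (n - n') = ((K none (red n none) (red n' none) : ℝ) : ℂ))

/-- **The data of `pfin` at one super-modulus.** -/
theorem supD_of {Q : Prm} {K0 k : ℕ} {J : Type} [Fintype J] [DecidableEq J] {sc : a → J}
    {sn : J → ℕ} {ell : J → ℝ} {g : ℤ[X]} {PP : Finset ℕ} (hPP : NS g PP) {S1 S2 : Finset ℤ}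
    {f f' : ℤ → ℝ} {prm : a → ℕ} (hinj : Function.Injective prm) (hprm : ∀ i, prm i ∈ PP)
    {lo : a → Prop} [DecidablePred lo] {Kl : {i // lo i} → ℤ → ℤ → ℝ} {m : ℕ} (hm : 1 ≤ m)
    (hpm : ∀ i, ¬ prm i ∣ m) (H : SupI Q K0 k sc sn ell g PP S1 S2 f f' prm lo Kl m) :
    SupD Q K0 k (Real.log m) sc sn ell (fun B => (FBa g PP S1 S2 f f' prm lo Kl 1 B).re)
      (fun B => (FBa g PP S1 S2 f f' prm lo Kl m B).re) := by
  obtain ⟨V, i1, i2, red, ℓ, es, lo', lam, lam2, u, K, c, v, v', s, rho, e, h1, h2, h3, h4, h5,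
    h6, hK, hU, hR⟩ := H
  have hp1 : ∀ i, prm i ≠ 1 := fun i => (hPP _ (hprm i)).1.one_lt.ne'
  refine ⟨V, i1, i2, ℓ, es, lo', lam, lam2, u, K, c, v, v', s, rho, e, pw red S1 f, pw red S2 f',
    1, h1, h2, h3, h4, h5, h6, ?_, fun B => ?_, fun B => ?_⟩
  · rw [abs_one]
    exact Real.one_le_exp (mul_nonneg (Nat.cast_nonneg _)
      (Real.log_nonneg (by exact_mod_cast hm)))
  · beta_reduce
    rw [FBa_oo g PP hPP S1 S2 f f' prm hinj hprm lo Kl m hm hpm red K hK hU 1
      (fun n hn n' hn' => by rw [hR n hn n' hn', one_mul]) B, Complex.ofReal_re]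
  · beta_reduce
    rw [push_rs_pw, push_rs_pw, FBa_one g PP hPP S1 S2 f f' prm hinj hprm hp1 lo Kl
      (fun n (i : a) => red n (some i)) (fun i => K (some i)) hK hU B, Complex.ofReal_re]

end

end Vale.Agent.P042.H85
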