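import Vale.Agent.P042.H284.SubK
import Vale.Agent.P042.H984.End2

/-!
# P042: the local lower bound of the main system (helper85, row 29)

`pmain`: the typed bounds of the marginal laws (`BTS`, all orders `≤ b0`, all top scales) and the
absolute bound (F1*) give the lower bound of the total of the family `F_B`.
-/

set_option linter.unusedSectionVars false

namespace Vale.Agent.P042.H85

open Finset
open Vale.Agent.P042.H284 (co tyi BTS FK zF wF glueS co_zF mc_wF FK_empty)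
open Vale.Agent.P042.H384 (lf)

universe u v u1 u2

/-- **Local lower bound, main system.** -/
theorem pmain {c1 cr C1 : ℝ} (A : ℕ) (hc1 : 0 < c1) (hcr0 : 0 < cr) (hcr : cr ≤ 1 / 2)
    (hC1 : 0 ≤ C1) :
    ∃ g0 : ℝ, 0 < g0 ∧ g0 ≤ c1 ∧ ∀ g' : ℝ, 0 < g' → g' ≤ g0 → ∃ l0 : ℕ,
      ∀ (J : Type v) [Fintype J] [DecidableEq J] (sn : J → ℕ) (ell : J → ℝ) (b0 : ℕ)
      (g c2 : ℝ) (Bd rr : J → ℝ), Function.Injective sn → (∀ j, l0 ≤ sn j) →
      (∀ j, ell j = sn j * Real.log 2) →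
      0 ≤ g → 8 * g ≤ g' → g + c1 ≤ c2 → 2 ≤ b0 →
      (∀ j, Real.exp (g' * ell j) ≤ Bd j) → (∀ j, Bd j ≤ Real.exp (g0 * ell j)) →
      C1 + 900 * ∑ j, Bd j + Fintype.card J + 3 ≤ b0 →
      (∀ j, Real.exp 3 ≤ rr j) →
      (∀ (j : J) (k : ℕ), k ≠ 0 → k ≤ b0 → (k : ℝ) ≤ Real.exp (ell j) →
        cr * Real.log k ≤ Real.log (rr j)) →
      ∀ (ι : Type u1) [Fintype ι] [DecidableEq ι] (V : ι → Type u2) [∀ i, Fintype (V i)]
        [∀ i, DecidableEq (V i)] (lam : ∀ i, V i → ℝ) (K : ∀ i, V i → V i → ℝ) (c : ι → ℝ)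
        (u u' : ∀ i, V i → ℝ) (s : ∀ i, V i → V i → ℝ) (rho e : ι → ℝ)
        (mu mu' : (∀ i, V i) → ℝ) (sc : ι → J) (DD : Finset (Finset ι)),
        (∀ i a, 0 ≤ lam i a) → H365.OB lam K c u u' s rho e → (∑ x, mu x = 1) →
        (∑ x, mu' x = 1) → (∀ x, mu x ≠ 0 → ∀ i, lam i (x i) ≠ 0) →
        (∀ x, mu' x ≠ 0 → ∀ i, lam i (x i) ≠ 0) →
        (∀ j, ((Finset.univ.filter (fun i => sc i = j)).card : ℝ) ≤ Real.exp (ell j)) →
        (∀ b, 1 ≤ b → b ≤ b0 → ∀ j : J, ∃ (p : ι → Prop) (_ : DecidablePred p) (σ : ℝ)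
          (VV : J → Finset (Σ i : {i // p i}, Option (V i))) (R E : {i // p i} → ℝ)
          (N : J → J → ℝ), BTS p lam rho e mu mu' sc ell g c1 c2 A b j σ VV R E N) →
        (∀ B : Finset ι, B.card ≤ b0 → B ∈ DD) →
        (∀ r : J → ℝ, (∀ j, 0 ≤ r j) → (∀ j, r j ≤ rr j) →
          ∑ B ∈ DD, |FK K mu mu' B| * ∏ i ∈ B, r (sc i)
            ≤ Real.exp (C1 + ∑ j, Bd j * (r j + r j ^ 2))) →
      1 / 2 * Real.exp (-(2 * ∑ j, Bd j)) ≤ ∑ B ∈ DD, FK K mu mu' B := by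
  have hK : (0 : ℝ) ≤ ((2 * A : ℕ) + 4 : ℝ) := by positivity
  obtain ⟨g0, hg0, l1, H⟩ := H984.end_sets2.{v, u1} (K := ((2 * A : ℕ) + 4 : ℝ)) (c := c1 / 6)
    (cr := cr) (C1 := C1) hK (by positivity) hcr0 hcr hC1
  refine ⟨min g0 c1, lt_min hg0 hc1, min_le_right _ _, fun g' hg' hgg => ?_⟩
  obtain ⟨l2, G⟩ := glueS.{v, u1, u2} hc1 hg' (hgg.trans (min_le_right _ _)) A
  refine ⟨max l1 l2, ?_⟩
  intro J _ _ sn ell b0 g c2 Bd rr hinj hsn hell hg hg8 hgc hb0 hB1 hB2 hb3 hrr hrrk ι _ _ V _ _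
    lam K c u u' s rho e mu mu' sc DD h0 hOB hmu hmu' hac hac' hcard hBT hDD hF1
  obtain ⟨hP1, hP2, hD⟩ := G J sn ell b0 g c2 hinj (fun j => (le_max_right _ _).trans (hsn j))
    hell hg hg8 hgc hb0 ι V lam K c u u' s rho e mu mu' sc h0 hOB hmu hmu' hac hac' hBT
  have hell' : ell = fun j => (sn j : ℝ) * Real.log 2 := funext hell
  have hell0 : ∀ j, 0 ≤ ell j := fun j => by
    rw [hell j]; exact mul_nonneg (Nat.cast_nonneg _) (Real.log_nonneg (by norm_num))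
  subst hell'
  refine H sn b0 (min g0 c1) Bd rr sc (FK K mu mu') DD (zF sc (FK K mu mu'))
    (wF sc (FK K mu mu')) hinj (fun j => (le_max_left _ _).trans (hsn j))
    (le_min hg0.le hc1.le) (min_le_left _ _) ?_ hB2 hb3 hrr hrrk hcard
    (mc_wF sc (FK_empty hmu hmu')) (fun a _ => co_zF sc _ a) (FK_empty hmu hmu') hDD hF1
    (fun j => (hP1 j).trans (hB1 j)) (fun j => (hP2 j).trans (hB1 j)) ?_
  · intro j
    refine le_trans ?_ (hB1 j)
    exact Real.one_le_exp (mul_nonneg hg'.le (hell0 j))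
  · intro a h3 hb
    exact hD a h3 hb

end Vale.Agent.P042.H85
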