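import Vale.Agent.P042.H85.HDic
import Vale.Agent.P042.H860.Loc
import Vale.Agent.P042.H452.KIn
import Vale.Agent.P042.H883.FrameI
import Vale.Agent.P042.H599.CellD
import Vale.Agent.P042.H362.HInst

/-!
# P042: the systems of one instance of `HLOC`, with and without super-modulus (helper85)

`pair_i` : the pair of the sites of one instance; `sup_i` : the hypothesis `SupI` of `hfin`.
-/

set_option autoImplicit false

namespace Vale.Agent.P042.H85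

open Finset Polynomial
open Vale.Agent.P042.H74 (Ram NS kN)
open Vale.Agent.P042.H92 (Prm PLaw PPair Scl)
open Vale.Agent.P042.H438 (Rs uw)
open Vale.Agent.P042.H452 (qS qM rs_S rs_M lamS lamM KPair KOpt loO lam2R)
open Vale.Agent.P042.H860 (Inst Ok Si Typ mo rn mem_Typ LawAt pw_im)
open Vale.Agent.P042.H359 (redZ)
open Vale.Agent.P042.H739 (Tst)
open Vale.Agent.P042.H883 (scI snT ellT esN nlo scl_si scl_si_some)
open Vale.Agent.P042.H362 (MMt mem_MMt)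

section
variable {I : Inst} {κ : ℝ}

/-- the length of the window is positive -/
theorem ok_N (h : Ok I κ) : 0 < I.N := by
  have h1 := H599.ok_h0 h
  have h2 := h.z1N
  omega

/-- the first law -/
theorem pw1 (h : Ok I κ) {a : Type} [Fintype a] [DecidableEq a] (q : a → ℕ)
    [∀ i, NeZero (q i)] : pw (redZ q) I.S1 I.f1 = H858.pf (rn q) I.nu1 1 I.N := by
  have : NeZero I.q0 := ⟨by have := h.q0_pos; omega⟩
  exact pw_im h.hG I.w h.z1N (ok_N h) q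

/-- the second law -/
theorem pw2 (h : Ok I κ) {a : Type} [Fintype a] [DecidableEq a] (q : a → ℕ)
    [∀ i, NeZero (q i)] : pw (redZ q) I.S2 I.f2 = H858.pf (rn q) I.nu2 1 I.N := by
  have : NeZero I.q0 := ⟨by have := h.q0_pos; omega⟩
  exact pw_im h.hG I.w' h.z2N (ok_N h) q

/-- **the pair of the sites of one instance** -/
theorem pair_i (h : Ok I κ) {Q : Prm} (hL : LawAt I Q) {kap : ℝ}
    {K : ∀ i : Si I.K0 I.C1 I.P, ZMod (qS I.K0 I.C1 I.P i) → ZMod (qS I.K0 I.C1 I.P i) → ℝ}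
    {c : Si I.K0 I.C1 I.P → ℝ} {w w' : ∀ i : Si I.K0 I.C1 I.P, ZMod (qS I.K0 I.C1 I.P i) → ℝ}
    {s : ∀ i : Si I.K0 I.C1 I.P, ZMod (qS I.K0 I.C1 I.P i) → ZMod (qS I.K0 I.C1 I.P i) → ℝ}
    {rho ee : Si I.K0 I.C1 I.P → ℝ}
    (hK : KPair Q univ (fun i => esN (qS I.K0 I.C1 I.P i)) (H860.lo I kap) (lamS I)
      (lam2R (H860.lo I kap) (lamS I) (qS I.K0 I.C1 I.P)) (uw (qS I.K0 I.C1 I.P)) K c w w' s
      rho ee) :
    PPair Q univ (fun i => Real.log (qS I.K0 I.C1 I.P i : ℕ))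
      (fun i => esN (qS I.K0 I.C1 I.P i)) (H860.lo I kap) (lamS I)
      (lam2R (H860.lo I kap) (lamS I) (qS I.K0 I.C1 I.P)) (uw (qS I.K0 I.C1 I.P)) K c w w' s
      rho ee (pw (redZ (qS I.K0 I.C1 I.P)) I.S1 I.f1)
      (pw (redZ (qS I.K0 I.C1 I.P)) I.S2 I.f2) := by
  obtain ⟨l1, l2⟩ := hL (Si I.K0 I.C1 I.P) (qS I.K0 I.C1 I.P) univ
    (fun i => esN (qS I.K0 I.C1 I.P i)) (rs_S I.K0 I.C1 I.P) (fun i _ => i.2)
    (fun p hp => ⟨⟨p, hp⟩, mem_univ _, rfl⟩) (fun i hi => absurd (mem_univ i) hi)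
    (fun i => H599.ok_cop_site h i.2) (fun i _ => rfl)
  rw [← pw1 h] at l1
  rw [← pw2 h] at l2
  exact hK.ppair l1 l2

/-- a super-modulus of `MMt` is larger than `P` -/
theorem log_sup {M0 m : ℕ} (hP : 1 ≤ I.P) (hC1 : 1 ≤ I.C1)
    (hm : m ∈ MMt (Tst I.K0) (qS I.K0 I.C1 I.P) M0) : Real.log I.P ≤ Real.log m := by
  obtain ⟨⟨h2, _⟩, hT, hS⟩ := mem_MMt.1 hm
  obtain ⟨p, hp, hd⟩ := Nat.exists_prime_and_dvd (show m ≠ 1 by omega)
  have h1 : I.K0 < p := by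
    by_contra hc
    exact hT p (H739.mem_Tst.2 ⟨hp, by omega⟩) hd
  have h3 : ⌊I.P ^ I.C1⌋₊ < p := by
    by_contra hc
    exact hS ⟨p, mem_Typ.2 ⟨by omega, hp, h1⟩⟩ hd
  have h4 : I.P ^ I.C1 < p := (Nat.floor_lt (Real.rpow_nonneg (by linarith) _)).1 h3
  have h5 : I.P ≤ I.P ^ I.C1 := by
    calc I.P = I.P ^ (1 : ℝ) := (Real.rpow_one _).symm
      _ ≤ I.P ^ I.C1 := Real.rpow_le_rpow_of_exponent_le hP hC1
  have h6 : (p : ℝ) ≤ m := by exact_mod_cast Nat.le_of_dvd (by omega) hd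
  exact Real.log_le_log (by linarith) (by linarith)

/-- **The systems with a super-modulus at one instance.** -/
theorem sup_i (h : Ok I κ) {Q : Prm} (hC : Q.C1 = I.C1) (hp : Q.p = Real.log I.P)
    (hP : 1 ≤ I.P) (hC1 : 1 ≤ I.C1) {K0' k : ℕ} (hk : 1 ≤ k) (hK0 : 2 ^ K0' ≤ I.K0)
    (hn : (nlo I.K0 : ℝ) * Real.log 2 ≤ Q.C1 * Q.p + 1) (hL : LawAt I Q) {kap : ℝ}
    {K : ∀ i : Si I.K0 I.C1 I.P, ZMod (qS I.K0 I.C1 I.P i) → ZMod (qS I.K0 I.C1 I.P i) → ℝ}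
    {rho ee : Si I.K0 I.C1 I.P → ℝ}
    (hU : ∀ i, ¬ H860.lo I kap i → ∀ n n' : ℤ,
      K i (n : ZMod (qS I.K0 I.C1 I.P i)) (n' : ZMod (qS I.K0 I.C1 I.P i)) =
        kN I.g (qS I.K0 I.C1 I.P i) (n - n'))
    (hK : ∀ (m : ℕ) [NeZero m], 2 ≤ m → (∀ i : Si I.K0 I.C1 I.P, m.Coprime i.1) →
      KOpt I kap Q K rho ee m) {M0 m : ℕ}
    (hm : m ∈ MMt (Tst I.K0) (qS I.K0 I.C1 I.P) M0) :
    SupI Q K0' k scI snT ellT I.g I.PP I.S1 I.S2 I.f1 I.f2 (qS I.K0 I.C1 I.P)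
      (H860.lo I kap)
      (fun i n n' => K i.1 (redZ (qS I.K0 I.C1 I.P) n i.1) (redZ (qS I.K0 I.C1 I.P) n' i.1))
      m := by
  obtain ⟨⟨h2, _⟩, hT, hS⟩ := mem_MMt.1 hm
  have : NeZero m := ⟨by omega⟩
  have hcs : ∀ i : Si I.K0 I.C1 I.P, m.Coprime i.1 := H599.cop_si_of hS
  obtain ⟨K', c', w, w', s', rho', e', k1, k2, k3, k4, k5, k6, k7⟩ := hK m h2 hcs
  have hlm : 0 ≤ Real.log m := Real.log_nonneg (by exact_mod_cast (by omega : 1 ≤ m))
  obtain ⟨l1, l2⟩ := hL (Option (Si I.K0 I.C1 I.P)) (qM I.K0 I.C1 I.P m) (univ.erase none)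
    (fun i => esN (qM I.K0 I.C1 I.P m i)) (rs_M I.K0 I.C1 I.P h2 hcs)
    (fun i hi => by
      rcases i with _ | i
      · exact absurd rfl (mem_erase.1 hi).1
      · exact i.2)
    (fun p hp => ⟨some ⟨p, hp⟩, mem_erase.2 ⟨Option.some_ne_none _, mem_univ _⟩, rfl⟩)
    (fun i hi p hp => by
      rcases i with _ | i
      · exact hS ⟨p, hp⟩
      · exact absurd (mem_erase.2 ⟨Option.some_ne_none _, mem_univ _⟩) hi)
    (fun i => by
      rcases i with _ | i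
      · exact H599.ok_cop_of h hT
      · exact H599.ok_cop_site h i.2)
    (fun i _ => rfl)
  rw [← pw1 h] at l1
  rw [← pw2 h] at l2
  have hm0 : (0 : ℝ) < m := by exact_mod_cast (by omega : 0 < m)
  have hke : (m : ℝ) ≤ Real.exp (k * Real.log m) := by
    calc (m : ℝ) = Real.exp (Real.log m) := (Real.exp_log hm0).symm
      _ ≤ Real.exp (k * Real.log m) := by
        refine Real.exp_le_exp.2 ?_
        have : (1 : ℝ) ≤ k := by exact_mod_cast hk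
        nlinarith
  refine ⟨fun i => ZMod (qM I.K0 I.C1 I.P m i), fun i => inferInstance, fun i => inferInstance,
    redZ (qM I.K0 I.C1 I.P m), fun i => Real.log (qM I.K0 I.C1 I.P m i : ℕ),
    fun i => esN (qM I.K0 I.C1 I.P m i), _, _, _, _, K', c', w, w', s', rho', e',
    scl_si_some Q hC (by linarith) hp m hK0
      (by rw [hC, hp]; exact mul_nonneg (by linarith) (Real.log_nonneg hP)) hn,
    k7.ppair l1 l2, ?_, rfl, ?_, ?_, ?_, ?_, ?_⟩
  · rw [hp]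
    exact log_sup hP hC1 hm
  · rw [k4]
    exact hke
  · rw [k6]
    exact (Real.exp_pos _).le
  · intro i n _ n' _
    rw [k1]
    rfl
  · intro i hi n _ n' _
    rw [k1]
    exact (hU i hi n n').symm
  · intro n _ n' _
    exact k2 n n'

end

end Vale.Agent.P042.H85
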